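import Mathlib
import Vale.Agent.Lib.P162.Defs
import Vale.Agent.Lib.P162.RDefs

/-!
# P162 (pool job R6, second copy): uniform on all positions against uniform off `j` occupied ones
-/

namespace Vale.Agent.Lib.P162.H83

open Finset BigOperators

/-- The `l1` distance between the uniform law on all `2 * h` positions and the uniform law on the
positions not occupied by `j` distinct cards is `2 * j / (2 * h)`. -/
theorem off_occ_tv (h j : ℕ) [NeZero h] (v : Fin j → ZMod (2 * h)) (hv : Function.Injective v)
    (hj : j < 2 * h) :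
    ∑ q : ZMod (2 * h),
        |1 / (2 * h : ℝ) - (if ∀ i, q ≠ v i then 1 / ((2 * h : ℝ) - j) else 0)|
      = 2 * (j : ℝ) / (2 * h : ℝ) := by
  classical
  have hh : (0 : ℝ) < h := by
    exact_mod_cast Nat.pos_of_ne_zero (NeZero.ne h)
  have hjr : (j : ℝ) < 2 * h := by
    exact_mod_cast hj
  have hj0 : (0 : ℝ) ≤ j := Nat.cast_nonneg j
  have hn : (0 : ℝ) < 2 * h := by linarith
  have hnj : (0 : ℝ) < 2 * h - j := by linarith
  have hterm : ∀ q : ZMod (2 * h),
      |1 / (2 * h : ℝ) - (if ∀ i, q ≠ v i then 1 / ((2 * h : ℝ) - j) else 0)| =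
        if q ∈ Finset.univ.image v then 1 / (2 * h : ℝ)
        else 1 / ((2 * h : ℝ) - j) - 1 / (2 * h : ℝ) := by
    intro q
    by_cases hq : q ∈ Finset.univ.image v
    · have hnot : ¬ ∀ i, q ≠ v i := by
        obtain ⟨i, _, hi⟩ := Finset.mem_image.mp hq
        exact fun hall => hall i hi.symm
      rw [if_neg hnot, if_pos hq, sub_zero, abs_of_pos (one_div_pos.mpr hn)]
    · have hall : ∀ i, q ≠ v i := fun i hi =>
        hq (Finset.mem_image.mpr ⟨i, Finset.mem_univ _, hi.symm⟩)
      rw [if_pos hall, if_neg hq, abs_sub_comm, abs_of_nonneg]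
      have hle : (2 * (h : ℝ) - j) ≤ 2 * h := by linarith
      have := one_div_le_one_div_of_le hnj hle
      linarith
  have hcard1 : (Finset.univ.filter fun q : ZMod (2 * h) => q ∈ Finset.univ.image v).card = j := by
    rw [Finset.filter_mem_eq_inter, Finset.univ_inter, Finset.card_image_of_injective _ hv,
      Finset.card_univ, Fintype.card_fin]
  have hcard2 :
      (Finset.univ.filter fun q : ZMod (2 * h) => q ∉ Finset.univ.image v).card = 2 * h - j := by
    have hsum := Finset.card_filter_add_card_filter_not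
      (s := (Finset.univ : Finset (ZMod (2 * h)))) (p := fun q => q ∈ Finset.univ.image v)
    rw [hcard1, Finset.card_univ, ZMod.card] at hsum
    omega
  rw [Finset.sum_congr rfl (fun q _ => hterm q), Finset.sum_ite, Finset.sum_const,
    Finset.sum_const, hcard1, hcard2, nsmul_eq_mul, nsmul_eq_mul, Nat.cast_sub hj.le]
  push_cast
  field_simp
  ring

end Vale.Agent.Lib.P162.H83
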